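import Mathlib

open MonoidAlgebra

namespace Vale.Agent.P194

/-- Residually a finite `p`-group. -/
def ResiduallyPFinite (p : ℕ) (N : Type*) [Group N] : Prop :=
  ∀ x : N, x ≠ 1 →
    ∃ (P : Type) (_ : Group P) (_ : Finite P), IsPGroup p P ∧ ∃ φ : N →* P, φ x ≠ 1

/-- An idempotent matrix with entries in `J` has entries in every power of `J`. -/
theorem idem_entries_mem_pow {K R : Type*} [CommRing K] [Ring R] [Algebra K R]
    {n : Type*} [Fintype n] (J : Submodule K R) (E : Matrix n n R) (hE : E * E = E)
    (hmem : ∀ i j, E i j ∈ J) : ∀ k : ℕ, 1 ≤ k → ∀ i j, E i j ∈ J ^ k := by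
  intro k hk
  induction k, hk using Nat.le_induction with
  | base => intro i j; simpa using hmem i j
  | succ k hk ih =>
      intro i j
      rw [← hE, Matrix.mul_apply, pow_succ]
      exact Submodule.sum_mem _ fun l _ => Submodule.mul_mem_mul (ih i l) (hmem l j)

/-- Lifting stable finiteness along a map whose kernel is residually nilpotent. -/
theorem stablyFinite_of_ker_pow {K R S : Type*} [CommRing K] [Ring R] [Algebra K R]
    [Ring S] [Algebra K S] (f : R →ₐ[K] S) [IsStablyFiniteRing S]
    (hker : ∀ x : R, (∀ k : ℕ, 1 ≤ k → x ∈ (LinearMap.ker f.toLinearMap) ^ k) → x = 0) :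
    IsStablyFiniteRing R := by
  refine ⟨fun n => ⟨fun {A B} hAB => ?_⟩⟩
  have h1 : (A.map f) * (B.map f) = 1 := by
    rw [← Matrix.map_mul, hAB, Matrix.map_one f (map_zero f) (map_one f)]
  have h2 : (B.map f) * (A.map f) = 1 := mul_eq_one_comm.mp h1
  set E := 1 - B * A with hE
  have hBA : (B * A) * (B * A) = B * A := by
    rw [Matrix.mul_assoc, ← Matrix.mul_assoc A B A, hAB, Matrix.one_mul]
  have hidem : E * E = E := by
    rw [hE, sub_mul, mul_sub, mul_sub, Matrix.one_mul, Matrix.mul_one, hBA]
    simp
  have hmem : ∀ i j, E i j ∈ LinearMap.ker f.toLinearMap := by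
    intro i j
    have h3 : E.map f = 0 := by
      rw [hE, Matrix.map_sub f (map_sub f), Matrix.map_mul, h2,
        Matrix.map_one f (map_zero f) (map_one f), sub_self]
    have h4 := congrFun (congrFun h3 i) j
    simpa using h4
  have hz : E = 0 := by
    ext i j
    exact hker _ fun k hk => idem_entries_mem_pow _ E hidem hmem k hk i j
  exact (sub_eq_zero.mp hz).symm

section filtration

variable {K : Type*} [CommRing K] {G Q : Type*} [Group G] [Group Q] (π : G →* Q)

/-- The span of `n - 1`, `n` in the kernel. -/
noncomputable def relAug : Submodule K (MonoidAlgebra K G) :=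
  Submodule.span K
    (Set.range fun n : π.ker => MonoidAlgebra.of K G (n : G) - 1)

theorem single_eq_smul_of (g : G) (c : K) : single g c = c • MonoidAlgebra.of K G g := by
  simp

theorem ker_le (π : G →* Q) :
    LinearMap.ker (mapDomainAlgHom K K π).toLinearMap ≤ relAug (K := K) π * ⊤ := by
  classical
  intro x hx
  let T : MonoidAlgebra K G →ₗ[K] MonoidAlgebra K G :=
    (MonoidAlgebra.coeffLinearEquiv (S := K) (M := G) K).symm.toLinearMap ∘ₗ
      Finsupp.lmapDomain K K (Function.invFun π ∘ π) ∘ₗ
      (MonoidAlgebra.coeffLinearEquiv (S := K) (M := G) K).toLinearMap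
  have hT : ∀ g c, T (single g c) = single (Function.invFun π (π g)) c := by
    intro g c; simp [T]
  have hmem : ∀ y : MonoidAlgebra K G, y - T y ∈ relAug (K := K) π * ⊤ := by
    intro y
    induction y using MonoidAlgebra.induction_linear with
    | zero => simp
    | add a b ha hb =>
        have : a + b - T (a + b) = (a - T a) + (b - T b) := by rw [map_add]; abel
        rw [this]; exact add_mem ha hb
    | single g c =>
        set g' := Function.invFun π (π g) with hg'
        have hπ : π g' = π g := Function.invFun_eq ⟨g, rfl⟩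
        have hn : g * g'⁻¹ ∈ π.ker := by simp [MonoidHom.mem_ker, hπ]
        have : single g c - T (single g c)
            = (MonoidAlgebra.of K G (g * g'⁻¹) - 1) * single g' c := by
          rw [hT, ← hg', sub_mul, one_mul]
          simp [single_mul_single]
        rw [this]
        exact Submodule.mul_mem_mul (Submodule.subset_span ⟨⟨_, hn⟩, rfl⟩) trivial
  have hT0 : T x = 0 := by
    have hfac : ∀ y : MonoidAlgebra K G, T y =
        (MonoidAlgebra.coeffLinearEquiv (S := K) (M := G) K).symm
          (Finsupp.mapDomain (Function.invFun π) (mapDomainAlgHom K K π y).coeff) := by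
      intro y
      simp [T, Finsupp.mapDomain_comp]
    rw [hfac, show mapDomainAlgHom K K π x = 0 from hx]
    simp
  simpa [hT0] using hmem x

theorem top_mul_relAug_le : (⊤ : Submodule K (MonoidAlgebra K G)) * relAug π ≤ relAug π * ⊤ := by
  rw [Submodule.mul_le]
  intro m hm0 a ha
  clear hm0
  induction ha using Submodule.span_induction with
  | zero => simp
  | add a b _ _ h1 h2 => rw [mul_add]; exact add_mem h1 h2
  | smul c a _ h => rw [mul_smul_comm]; exact Submodule.smul_mem _ c h
  | mem a ha =>
      obtain ⟨⟨n, hn⟩, rfl⟩ := ha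
      induction m using MonoidAlgebra.induction_linear with
      | zero => simp
      | add u v hu hv => rw [add_mul]; exact add_mem hu hv
      | single g c =>
          have hn' : g * n * g⁻¹ ∈ π.ker := (MonoidHom.normal_ker π).conj_mem n hn g
          have : single g c * (MonoidAlgebra.of K G n - 1)
              = (MonoidAlgebra.of K G (g * n * g⁻¹) - 1) * single g c := by
            simp [mul_sub, sub_mul, single_mul_single]
          rw [this]
          exact Submodule.mul_mem_mul (Submodule.subset_span ⟨⟨_, hn'⟩, rfl⟩) trivial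

theorem ker_pow_le (k : ℕ) (hk : 1 ≤ k) :
    (LinearMap.ker (mapDomainAlgHom K K π).toLinearMap) ^ k ≤ relAug (K := K) π ^ k * ⊤ := by
  induction k, hk using Nat.le_induction with
  | base => simpa using ker_le π
  | succ k hk ih =>
      rw [pow_succ, pow_succ]
      calc _ ≤ (relAug (K := K) π ^ k * ⊤) * (relAug π * ⊤) :=
            mul_le_mul' ih (ker_le π)
        _ = relAug π ^ k * ((⊤ * relAug π) * ⊤) := by simp only [mul_assoc]
        _ ≤ relAug π ^ k * ((relAug π * ⊤) * ⊤) :=
            mul_le_mul' le_rfl (mul_le_mul' (top_mul_relAug_le π) le_rfl)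
        _ = relAug π ^ k * relAug π * (⊤ * ⊤) := by simp only [mul_assoc]
        _ ≤ relAug π ^ k * relAug π * ⊤ := mul_le_mul' le_rfl le_top

end filtration

/-- The augmentation map. -/
noncomputable def augHom (K P : Type*) [CommRing K] [Group P] : MonoidAlgebra K P →ₐ[K] K :=
  MonoidAlgebra.lift K K P 1

theorem pgroup_aug_nilpotent {K : Type*} [CommRing K] (p : ℕ) [Fact p.Prime] [CharP K p]
    (P : Type) [Group P] [Finite P] (hP : IsPGroup p P) :
    ∃ m : ℕ, 1 ≤ m ∧ (LinearMap.ker (augHom K P).toLinearMap) ^ m = ⊥ := by
  induction hn : Nat.card P using Nat.strong_induction_on generalizing P with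
  | _ n ih =>
    by_cases htriv : Nontrivial P
    · have : Nontrivial P := htriv
      have hc : Nontrivial (Subgroup.center P) := hP.center_nontrivial
      obtain ⟨z, hz⟩ := exists_ne (1 : Subgroup.center P)
      obtain ⟨k, hk⟩ := hP (z : P)
      let H : Subgroup P := Subgroup.zpowers (z : P)
      have hzc : ∀ g : P, g * (z : P) = (z : P) * g := Subgroup.mem_center_iff.mp z.2
      have : H.Normal := by
        refine ⟨fun a ha g => ?_⟩
        obtain ⟨i, rfl⟩ := Subgroup.mem_zpowers_iff.mp ha
        have hcomm : Commute g ((z : P) ^ i) := (show Commute g (z : P) from hzc g).zpow_right i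
        rw [hcomm.eq, mul_inv_cancel_right]
        exact ha
      let π : P →* P ⧸ H := QuotientGroup.mk' H
      have hne : (z : P) ≠ 1 := fun h => hz (Subtype.ext h)
      have hlt : Nat.card (P ⧸ H) < n := by
        rw [← hn, Subgroup.card_eq_card_quotient_mul_card_subgroup H]
        refine lt_mul_of_one_lt_right Nat.card_pos ?_
        have : Nontrivial H :=
          ⟨⟨⟨(z : P), Subgroup.mem_zpowers _⟩, 1, fun h => hne (congrArg Subtype.val h)⟩⟩
        exact Finite.one_lt_card
      obtain ⟨m, hm1, hm⟩ := ih _ hlt (P ⧸ H) (hP.to_quotient H) rfl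
      have hmap : (LinearMap.ker (augHom K P).toLinearMap).map (mapDomainAlgHom K K π).toLinearMap
          ≤ LinearMap.ker (augHom K (P ⧸ H)).toLinearMap := by
        rintro _ ⟨x, hx, rfl⟩
        have : (augHom K (P ⧸ H)).comp (mapDomainAlgHom K K π) = augHom K P := by
          apply MonoidAlgebra.algHom_ext
          · intro g; simp [augHom]
          · exact Subsingleton.elim _ _
        have h2 := congrArg (fun f : MonoidAlgebra K P →ₐ[K] K => f x) this
        simp only [AlgHom.comp_apply] at h2
        simp only [LinearMap.mem_ker, AlgHom.toLinearMap_apply] at hx ⊢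
        rw [h2]; exact hx
      have hle : (LinearMap.ker (augHom K P).toLinearMap) ^ m ≤
          LinearMap.ker (mapDomainAlgHom K K π).toLinearMap := by
        intro x hx
        have h2 : (mapDomainAlgHom K K π).toLinearMap x ∈
            (LinearMap.ker (augHom K (P ⧸ H)).toLinearMap) ^ m := by
          have := Submodule.mem_map_of_mem (f := (mapDomainAlgHom K K π).toLinearMap) hx
          rw [Submodule.map_pow] at this
          exact pow_le_pow_left' hmap m this
        rw [hm] at h2
        simpa using h2
      set Z : MonoidAlgebra K P := MonoidAlgebra.of K P (z : P) - 1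
      have hZcomm : ∀ y : MonoidAlgebra K P, y * Z = Z * y := by
        intro y
        induction y using MonoidAlgebra.induction_linear with
        | zero => simp
        | add u v hu hv => simp [add_mul, mul_add, hu, hv]
        | single g c => simp [Z, mul_sub, sub_mul, single_mul_single, hzc g]
      have hk0 : LinearMap.ker (mapDomainAlgHom K K π).toLinearMap ≤
          Submodule.span K {Z} * ⊤ := by
        refine (ker_le π).trans ?_
        rw [Submodule.mul_le]
        intro a ha b _
        induction ha using Submodule.span_induction with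
        | zero => simp
        | add a c _ _ h1 h2 => rw [add_mul]; exact add_mem h1 h2
        | smul c a _ h => rw [smul_mul_assoc]; exact Submodule.smul_mem _ c h
        | mem a ha =>
          obtain ⟨⟨g, hg⟩, rfl⟩ := ha
          have hgH : g ∈ H := by simpa [π, MonoidHom.mem_ker] using hg
          obtain ⟨i, rfl⟩ := Subgroup.mem_zpowers_iff.mp hgH
          obtain ⟨j, hj⟩ : ∃ j : ℕ, (z : P) ^ j = (z : P) ^ i :=
            ⟨_, (mem_powers_iff_mem_zpowers.mpr (Subgroup.mem_zpowers_iff.mpr ⟨i, rfl⟩)).choose_spec⟩
          have : MonoidAlgebra.of K P ((z : P) ^ i) - 1 =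
              Z * ∑ l ∈ Finset.range j, MonoidAlgebra.of K P (z : P) ^ l := by
            rw [← hj, map_pow, mul_geom_sum]
          show (MonoidAlgebra.of K P ((z : P) ^ i) - 1) * b ∈ _
          rw [this, mul_assoc]
          exact Submodule.mul_mem_mul (Submodule.mem_span_singleton_self _) trivial
      have hswap : (⊤ : Submodule K (MonoidAlgebra K P)) * Submodule.span K {Z} ≤
          Submodule.span K {Z} * ⊤ := by
        rw [Submodule.mul_le]
        intro a _ b hb
        obtain ⟨c, rfl⟩ := Submodule.mem_span_singleton.mp hb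
        rw [mul_smul_comm, hZcomm, ← smul_mul_assoc]
        exact Submodule.mul_mem_mul (Submodule.smul_mem _ c (Submodule.mem_span_singleton_self _)) trivial
      have hpow : ∀ l : ℕ, 1 ≤ l →
          (LinearMap.ker (mapDomainAlgHom K K π).toLinearMap) ^ l ≤
            Submodule.span K {Z ^ l} * ⊤ := by
        intro l hl
        induction l, hl using Nat.le_induction with
        | base => simpa using hk0
        | succ l hl ihl =>
            rw [pow_succ]
            calc _ ≤ (Submodule.span K {Z ^ l} * ⊤) * (Submodule.span K {Z} * ⊤) :=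
                  mul_le_mul' ihl hk0
              _ = Submodule.span K {Z ^ l} * ((⊤ * Submodule.span K {Z}) * ⊤) := by
                  simp only [mul_assoc]
              _ ≤ Submodule.span K {Z ^ l} * ((Submodule.span K {Z} * ⊤) * ⊤) :=
                  mul_le_mul' le_rfl (mul_le_mul' hswap le_rfl)
              _ = Submodule.span K {Z ^ l} * Submodule.span K {Z} * (⊤ * ⊤) := by
                  simp only [mul_assoc]
              _ ≤ Submodule.span K {Z ^ l} * Submodule.span K {Z} * ⊤ := mul_le_mul' le_rfl le_top
              _ = Submodule.span K {Z ^ (l + 1)} * ⊤ := by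
                  rw [Submodule.span_mul_span, Set.singleton_mul_singleton, ← pow_succ]
      have hp1 : 1 ≤ p ^ k := Nat.one_le_pow _ _ (Fact.out : p.Prime).pos
      have : CharP (MonoidAlgebra K P) p :=
        charP_of_injective_ringHom (f := MonoidAlgebra.singleOneRingHom)
          (MonoidAlgebra.single_right_injective) p
      have hZ : Z ^ (p ^ k) = 0 := by
        simp only [Z]
        rw [sub_pow_char_pow_of_commute p _ (Commute.one_right _), one_pow, ← map_pow, hk, map_one, sub_self]
      refine ⟨m * p ^ k, Nat.one_le_iff_ne_zero.mpr (by positivity), ?_⟩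
      rw [eq_bot_iff, pow_mul]
      refine (pow_le_pow_left' hle _).trans ((hpow _ hp1).trans ?_)
      simp [hZ]
    · have : Subsingleton P := not_nontrivial_iff_subsingleton.mp htriv
      refine ⟨1, le_rfl, ?_⟩
      rw [pow_one, eq_bot_iff]
      intro x hx
      have hx1 : x = single 1 (x.coeff 1) := by
        ext g; simp [Subsingleton.elim g 1]
      have h0 : augHom K P x = 0 := hx
      rw [hx1] at h0
      simp [augHom] at h0
      rw [Submodule.mem_bot, hx1, h0]; simp

theorem eq_zero_of_mem_all_pow {K : Type*} [CommRing K] (p : ℕ) [Fact p.Prime] [CharP K p]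
    {G Q : Type*} [Group G] [Group Q] (π : G →* Q) (hN : ResiduallyPFinite p π.ker)
    (x : MonoidAlgebra K G)
    (hx : ∀ k : ℕ, 1 ≤ k → x ∈ (LinearMap.ker (mapDomainAlgHom K K π).toLinearMap) ^ k) :
    x = 0 := by
  classical
  ext g₀
  by_contra hne
  have hne' : x.coeff g₀ ≠ 0 := by simpa using hne
  let S := (x.coeff.support.filter fun g => π g = π g₀ ∧ g ≠ g₀)
  have hS : ∀ g : S, ∃ (P : Type) (_ : Group P) (_ : Finite P),
      IsPGroup p P ∧ ∃ φ : π.ker →* P,
        φ ⟨(g : G) * g₀⁻¹, by
          have := g.2; simp only [S, Finset.mem_filter] at this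
          simp [MonoidHom.mem_ker, this.2.1]⟩ ≠ 1 := by
    intro g
    refine hN _ ?_
    intro h
    have h1 : (g : G) * g₀⁻¹ = 1 := congrArg Subtype.val h
    have := g.2; simp only [S, Finset.mem_filter] at this
    exact this.2.2 (mul_inv_eq_one.mp h1)
  choose P hG hF hp φ hφ using hS
  have hfun : ∀ (q : Fin S.card → Type) [∀ i, Group (q i)] [∀ i, Finite (q i)],
      (∀ i, IsPGroup p (q i)) → IsPGroup p ((i : Fin S.card) → q i) := by
    intro q _ _ hq w
    choose e he using fun i => hq i (w i)
    refine ⟨∑ i, e i, ?_⟩
    funext i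
    have hle : e i ≤ ∑ i, e i := Finset.single_le_sum (fun j _ => Nat.zero_le _) (Finset.mem_univ i)
    obtain ⟨d, hd⟩ := Nat.exists_eq_add_of_le hle
    simp [hd, pow_add, pow_mul, he]
  let ev : Fin S.card ≃ S := S.equivFin.symm
  let instG : ∀ i : Fin S.card, Group (P (ev i)) := fun i => hG (ev i)
  have instF : ∀ i : Fin S.card, Finite (P (ev i)) := fun i => hF (ev i)
  let Φ : π.ker →* ((i : Fin S.card) → P (ev i)) := MonoidHom.pi fun i => φ (ev i)
  obtain ⟨m, hm1, hm⟩ := pgroup_aug_nilpotent (K := K) p ((i : Fin S.card) → P (ev i))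
    (hfun _ fun i => hp (ev i))
  let F : G → MonoidAlgebra K ((i : Fin S.card) → P (ev i)) := fun g =>
    if h : π g = π g₀ then
      MonoidAlgebra.of K _ (Φ ⟨g * g₀⁻¹, by simp [MonoidHom.mem_ker, h]⟩) else 0
  let L : MonoidAlgebra K G →ₗ[K] MonoidAlgebra K ((i : Fin S.card) → P (ev i)) :=
    Finsupp.linearCombination K F ∘ₗ
      (MonoidAlgebra.coeffLinearEquiv (S := K) (M := G) K).toLinearMap
  have hLs : ∀ g c, L (single g c) = c • F g := by intro g c; simp [L]
  have hLmul : ∀ (n : π.ker) (y : MonoidAlgebra K G),
      L ((MonoidAlgebra.of K G (n : G) - 1) * y) =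
        (MonoidAlgebra.of K _ (Φ n) - 1) * L y := by
    intro n y
    induction y using MonoidAlgebra.induction_linear with
    | zero => simp
    | add u v hu hv => simp only [mul_add, map_add, hu, hv]
    | single g c =>
        have hn : π (n : G) = 1 := n.2
        have key : F ((n : G) * g) = MonoidAlgebra.of K _ (Φ n) * F g := by
          simp only [F]
          by_cases h : π g = π g₀
          · rw [dif_pos (show π ((n : G) * g) = π g₀ by rw [map_mul, hn, h, one_mul]),
              dif_pos h, ← map_mul (MonoidAlgebra.of K _), ← map_mul Φ]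
            congr 2
            ext; simp [mul_assoc]
          · rw [dif_neg (show ¬ π ((n : G) * g) = π g₀ by rw [map_mul, hn, one_mul]; exact h),
              dif_neg h, mul_zero]
        rw [sub_mul, one_mul, map_sub, MonoidAlgebra.of_apply, single_mul_single, one_mul,
          hLs, hLs, key, sub_mul, one_mul, mul_smul_comm]
  have hLpow : ∀ k : ℕ, ∀ a ∈ relAug (K := K) π ^ k, ∀ y,
      L (a * y) ∈ (LinearMap.ker (augHom K ((i : Fin S.card) → P (ev i))).toLinearMap) ^ k * ⊤ := by
    intro k
    induction k with
    | zero =>
        intro a _ y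
        rw [pow_zero, one_mul]; trivial
    | succ k ih =>
        intro a ha y
        rw [pow_succ'] at ha ⊢
        induction ha using Submodule.mul_induction_on' with
        | add u _ v _ hu hv => rw [add_mul, map_add]; exact add_mem hu hv
        | mem_mul_mem u hu v hv =>
            rw [mul_assoc u v y, mul_assoc]
            induction hu using Submodule.span_induction with
            | zero => simp
            | add s t _ _ h1 h2 => rw [add_mul, map_add]; exact add_mem h1 h2
            | smul c s _ h => rw [smul_mul_assoc, map_smul]; exact Submodule.smul_mem _ c h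
            | mem s hs =>
                obtain ⟨n, rfl⟩ := hs
                rw [hLmul]
                refine Submodule.mul_mem_mul ?_ (ih v hv y)
                simp only [LinearMap.mem_ker, AlgHom.toLinearMap_apply, map_sub, map_one]
                erw [MonoidAlgebra.lift_of]
                exact sub_self 1
  have hL0 : L x = 0 := by
    have hxm := ker_pow_le π m hm1 (hx m hm1)
    refine Submodule.mul_induction_on (C := fun y => L y = 0) hxm ?_ ?_
    · intro u hu v _
      have := hLpow m u hu v
      rw [hm] at this
      simpa using this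
    · intro u v hu hv
      rw [map_add, hu, hv, add_zero]
  have hcast : ∀ (a b : S) (y : π.ker), a = b → φ a y = 1 → φ b y = 1 := by
    rintro a b y rfl h; exact h
  have hval : (L x).coeff 1 = x.coeff g₀ := by
    have hLx : L x = ∑ g ∈ x.coeff.support, x.coeff g • F g := by
      simp [L, Finsupp.linearCombination_apply, Finsupp.sum]
    rw [hLx, MonoidAlgebra.coeff_sum, Finsupp.finsetSum_apply, Finset.sum_eq_single g₀]
    · simp [F, MonoidAlgebra.coeff_smul, show (⟨(1 : G), π.ker.one_mem⟩ : π.ker) = 1 from rfl]
    · intro g hg hgne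
      simp only [F]
      by_cases h : π g = π g₀
      · rw [dif_pos h]
        have hgS : g ∈ S := by simp [S, hgne, h, Finsupp.mem_support_iff.mp hg]
        have : Φ ⟨g * g₀⁻¹, by simp [MonoidHom.mem_ker, h]⟩ ≠ 1 := by
          intro hh
          apply hφ ⟨g, hgS⟩
          have h2 := congrFun hh (ev.symm ⟨g, hgS⟩)
          simp only [Φ, MonoidHom.pi_apply, Pi.one_apply] at h2
          exact hcast _ _ _ (Equiv.apply_symm_apply ev _) h2
        simp [MonoidAlgebra.coeff_smul, Finsupp.single_apply, this, Ne.symm this]
      · rw [dif_neg h]; simp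
    · intro h; simp [Finsupp.notMem_support_iff.mp h]
  rw [hL0] at hval
  simp at hval
  exact hne' hval.symm

/-- Stable finiteness passes to extensions by residually `p`-finite kernels. -/
theorem stablyFinite_of_resP_ker {K : Type*} [CommRing K] (p : ℕ) [Fact p.Prime] [CharP K p]
    {G Q : Type*} [Group G] [Group Q] (π : G →* Q) (hN : ResiduallyPFinite p π.ker)
    [IsStablyFiniteRing (MonoidAlgebra K Q)] : IsStablyFiniteRing (MonoidAlgebra K G) :=
  stablyFinite_of_ker_pow (mapDomainAlgHom K K π) fun x hx => eq_zero_of_mem_all_pow p π hN x hx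

end Vale.Agent.P194
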