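import Mathlib
import Vale.Agent.P194.Permanence

namespace Vale.Agent.P194

open Matrix

section rep

variable {α : Type*} (p : ℕ) (ls : List α)

/-- Path matrix of the letter `i` along the word `ls`. -/
noncomputable def stepMat (i : α) : Matrix (Fin (ls.length + 1)) (Fin (ls.length + 1)) (ZMod p) :=
  open Classical in
  fun s t => if (t : ℕ) = s + 1 ∧ ls[(s : ℕ)]? = some i then 1 else 0

theorem stepMat_pow (i : α) (n : ℕ) (s t : Fin (ls.length + 1)) :
    open Classical in
    (stepMat p ls i ^ n) s t =
      if (t : ℕ) = s + n ∧ ∀ k, (s : ℕ) ≤ k → k < t → ls[k]? = some i then 1 else 0 := by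
  classical
  induction n generalizing t with
  | zero =>
      rw [pow_zero, Matrix.one_apply]
      by_cases h : s = t
      · subst h; rw [if_pos rfl, if_pos ⟨by omega, fun k h1 h2 => by omega⟩]
      · rw [if_neg h, if_neg fun h' => h (Fin.ext (by omega))]
  | succ n ih =>
      rw [pow_succ, Matrix.mul_apply]
      by_cases h : (t : ℕ) = s + (n + 1) ∧ ∀ k, (s : ℕ) ≤ k → k < t → ls[k]? = some i
      · rw [if_pos h]
        have hlt : (s : ℕ) + n < ls.length + 1 := by have := t.2; omega
        rw [Finset.sum_eq_single (⟨s + n, hlt⟩ : Fin (ls.length + 1))]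
        · rw [ih, if_pos ⟨rfl, fun k h1 h2 => h.2 k h1 (by simp at h2; omega)⟩, one_mul]
          have h3 : ls[(s : ℕ) + n]? = some i := h.2 _ (by omega) (by omega)
          rw [stepMat, if_pos ⟨by simp; omega, h3⟩]
        · intro r _ hr
          rw [ih]
          rw [if_neg fun h' => hr (Fin.ext h'.1), zero_mul]
        · simp
      · rw [if_neg h]
        refine Finset.sum_eq_zero fun r _ => ?_
        rw [ih, stepMat]
        by_cases h1 : (r : ℕ) = s + n ∧ ∀ k, (s : ℕ) ≤ k → k < r → ls[k]? = some i
        · by_cases h2 : (t : ℕ) = r + 1 ∧ ls[(r : ℕ)]? = some i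
          · exfalso
            apply h
            refine ⟨by omega, fun k ha hb => ?_⟩
            by_cases hk : k < (r : ℕ)
            · exact h1.2 k ha hk
            · have : k = (r : ℕ) := by omega
              rw [this]; exact h2.2
          · rw [if_neg h2, mul_zero]
        · rw [if_neg h1, zero_mul]

theorem stepMat_nilpotent (i : α) : stepMat p ls i ^ (ls.length + 1) = 0 := by
  ext s t
  rw [stepMat_pow, if_neg]
  · rfl
  · have := t.2; omega

variable [Fact p.Prime]

theorem unip_pow_eq_one {n : Type*} [Fintype n] [DecidableEq n] (X : Matrix n n (ZMod p)) (k : ℕ)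
    (hk : X ^ (p ^ k) = 0) : (1 + X) ^ (p ^ k) = 1 := by
  by_cases hn : IsEmpty n
  · ext i; exact hn.elim i
  · have : Nonempty n := not_isEmpty_iff.mp hn
    rw [add_pow_char_pow_of_commute p _ (Commute.one_left X), one_pow, hk, add_zero]

/-- Strictly upper triangular. -/
def StrictUpper {m : ℕ} {R : Type*} [Zero R] (X : Matrix (Fin m) (Fin m) R) : Prop :=
  ∀ s t : Fin m, ¬ (s : ℕ) < t → X s t = 0

theorem StrictUpper.pow {m : ℕ} {R : Type*} [Semiring R] {X : Matrix (Fin m) (Fin m) R}
    (hX : StrictUpper X) : ∀ (n : ℕ) (s t : Fin m), ¬ (s : ℕ) + n ≤ t → (X ^ n) s t = 0 := by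
  intro n
  induction n with
  | zero =>
      intro s t h
      rw [pow_zero, Matrix.one_apply, if_neg]
      intro h'; subst h'; omega
  | succ n ih =>
      intro s t h
      rw [pow_succ, Matrix.mul_apply]
      refine Finset.sum_eq_zero fun r _ => ?_
      by_cases h1 : (s : ℕ) + n ≤ r
      · rw [hX r t (by omega), mul_zero]
      · rw [ih s r h1, zero_mul]

/-- Unitriangular matrices, as units. -/
def unitri (m : ℕ) : Submonoid (Matrix (Fin m) (Fin m) (ZMod p))ˣ where
  carrier := {u | StrictUpper ((u : Matrix (Fin m) (Fin m) (ZMod p)) - 1)}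
  one_mem' := by intro s t _; simp
  mul_mem' := by
    intro a b ha hb s t h
    have key : ((a * b : (Matrix (Fin m) (Fin m) (ZMod p))ˣ) : Matrix (Fin m) (Fin m) (ZMod p)) - 1
        = ((a : Matrix (Fin m) (Fin m) (ZMod p)) - 1) * ((b : Matrix _ _ (ZMod p)) - 1) +
          (((a : Matrix (Fin m) (Fin m) (ZMod p)) - 1) + ((b : Matrix _ _ (ZMod p)) - 1)) := by
      simp [mul_sub, sub_mul]
      abel
    rw [key, Matrix.add_apply, Matrix.add_apply, ha s t h, hb s t h, Matrix.mul_apply]
    simp only [add_zero]
    refine Finset.sum_eq_zero fun r _ => ?_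
    by_cases h1 : (s : ℕ) < r
    · rw [hb r t (by omega), mul_zero]
    · rw [ha s r h1, zero_mul]

theorem unitri_pgroup {m : ℕ} (u : (Matrix (Fin m) (Fin m) (ZMod p))ˣ) (hu : u ∈ unitri p m) :
    u ^ (p ^ m) = 1 := by
  apply Units.ext
  have hz : ((u : Matrix (Fin m) (Fin m) (ZMod p)) - 1) ^ (p ^ m) = 0 := by
    ext s t
    refine StrictUpper.pow hu _ s t ?_
    have h1 : m < p ^ m := Nat.lt_pow_self (Fact.out : p.Prime).one_lt
    have := t.2
    omega
  have := unip_pow_eq_one p _ m hz
  simpa using this

/-- The group of unitriangular matrices. -/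
def unitriGroup (m : ℕ) : Subgroup (Matrix (Fin m) (Fin m) (ZMod p))ˣ where
  toSubmonoid := unitri p m
  inv_mem' := by
    intro u hu
    have hp : 1 ≤ p ^ m := Nat.one_le_pow _ _ (Fact.out : p.Prime).pos
    have h : u⁻¹ = u ^ (p ^ m - 1) := by
      apply inv_eq_of_mul_eq_one_left
      rw [← pow_succ, Nat.sub_add_cancel hp]
      exact unitri_pgroup p u hu
    rw [h]
    exact (unitri p m).pow_mem hu _

theorem unitriGroup_isPGroup (m : ℕ) : IsPGroup p (unitriGroup p m) :=
  fun u => ⟨m, Subtype.ext (unitri_pgroup p u.1 u.2)⟩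

theorem stepMat_strictUpper (i : α) : StrictUpper (stepMat p ls i) := by
  intro s t h
  rw [stepMat, if_neg]
  intro h'; omega

/-- The generator attached to the letter `i`. -/
noncomputable def gen (i : α) : unitriGroup p (ls.length + 1) :=
  ⟨(show IsUnit (1 + stepMat p ls i) from
      IsNilpotent.isUnit_one_add ⟨_, stepMat_nilpotent p ls i⟩).unit, by
    show StrictUpper _
    simpa using stepMat_strictUpper p ls i⟩

theorem gen_coe (i : α) :
    (((gen p ls i : unitriGroup p (ls.length + 1)) :
      (Matrix (Fin (ls.length + 1)) (Fin (ls.length + 1)) (ZMod p))ˣ) :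
        Matrix (Fin (ls.length + 1)) (Fin (ls.length + 1)) (ZMod p)) = 1 + stepMat p ls i := rfl

/-- Coercion to matrices. -/
noncomputable def toMat (m : ℕ) : unitriGroup p m →* Matrix (Fin m) (Fin m) (ZMod p) :=
  (Units.coeHom _).comp (unitriGroup p m).subtype

theorem toMat_gen_zpow (i : α) (a : ℕ) (u : ℤ) :
    ∃ u' : ℕ, (u' : ZMod p) = (u : ZMod p) ∧
      toMat p _ (gen p ls i ^ ((p : ℤ) ^ a * u)) =
        ∑ n ∈ Finset.range (u' + 1),
          (u'.choose n : ZMod p) • stepMat p ls i ^ (p ^ a * n) := by
  set m := ls.length + 1 with hm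
  have hp : (0 : ℤ) < (p : ℤ) ^ m := pow_pos (by exact_mod_cast (Fact.out : p.Prime).pos) _
  obtain ⟨u', hu'⟩ := Int.eq_ofNat_of_zero_le (Int.emod_nonneg u hp.ne')
  refine ⟨u', ?_, ?_⟩
  · have hd : u = u % (p : ℤ) ^ m + (p : ℤ) ^ m * (u / (p : ℤ) ^ m) := (Int.emod_add_mul_ediv u _).symm
    have : ((p : ℤ) : ZMod p) = 0 := by simp
    rw [hd, hu']
    simp [this, hm]
  · have hd : (p : ℤ) ^ a * u =
        ((p ^ a * u' : ℕ) : ℤ) + ((p ^ m : ℕ) : ℤ) * ((p : ℤ) ^ a * (u / (p : ℤ) ^ m)) := by
      have := (Int.emod_add_mul_ediv u ((p : ℤ) ^ m)).symm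
      push_cast
      rw [← hu']
      linear_combination (p : ℤ) ^ a * this
    have h1 : gen p ls i ^ (p ^ m) = 1 := Subtype.ext (unitri_pgroup p _ (gen p ls i).2)
    rw [hd, _root_.zpow_add, _root_.zpow_mul, zpow_natCast, zpow_natCast, h1, _root_.one_zpow, mul_one,
      map_pow]
    show (1 + stepMat p ls i) ^ (p ^ a * u') = _
    have h2 : (1 + stepMat p ls i) ^ (p ^ a) = 1 + stepMat p ls i ^ (p ^ a) := by
      rw [add_pow_char_pow_of_commute p _ (Commute.one_left _), one_pow]
    rw [pow_mul, h2, add_comm (1 : Matrix (Fin (ls.length + 1)) (Fin (ls.length + 1)) (ZMod p)),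
      (Commute.one_right _).add_pow]
    refine Finset.sum_congr rfl fun n _ => ?_
    rw [one_pow, mul_one, ← pow_mul, ← nsmul_eq_mul', Nat.cast_smul_eq_nsmul]

end rep

variable {α : Type*}

/-- The product of a list of syllables. -/
def sylProd {H : Type*} [Group H] (g : α → H) : List (α × ℤ) → H
  | [] => 1
  | q :: l => g q.1 ^ q.2 * sylProd g l

theorem map_sylProd {H J : Type*} [Group H] [Group J] (f : H →* J) (g : α → H) :
    ∀ l : List (α × ℤ), f (sylProd g l) = sylProd (fun a => f (g a)) l
  | [] => map_one f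
  | q :: l => by rw [sylProd, map_mul, map_zpow, map_sylProd f g l]; rfl

/-- Alternating: nonzero exponents and neighbouring letters differ. -/
def Alternating : List (α × ℤ) → Prop
  | [] => True
  | q :: l => q.2 ≠ 0 ∧ (∀ q', l.head? = some q' → q'.1 ≠ q.1) ∧ Alternating l

theorem exists_syllables (w : FreeGroup α) :
    ∃ l, Alternating l ∧ w = sylProd FreeGroup.of l := by
  classical
  rw [← FreeGroup.mk_toWord (x := w)]
  generalize w.toWord = L
  induction L with
  | nil => exact ⟨[], trivial, rfl⟩
  | cons c L ih =>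
      obtain ⟨a, b⟩ := c
      obtain ⟨l, hl, he⟩ := ih
      obtain ⟨ε, hε, hε0⟩ : ∃ ε : ℤ, FreeGroup.mk [(a, b)] = FreeGroup.of a ^ ε ∧ ε ≠ 0 := by
        cases b
        · refine ⟨-1, ?_, by norm_num⟩
          rw [_root_.zpow_neg_one]
          rfl
        · exact ⟨1, by rw [zpow_one]; rfl, one_ne_zero⟩
      have hc : FreeGroup.mk ((a, b) :: L) = FreeGroup.of a ^ ε * sylProd FreeGroup.of l := by
        rw [← he, ← hε, FreeGroup.mul_mk]; rfl
      rw [hc]
      rcases l with _ | ⟨⟨a', e'⟩, l⟩
      · exact ⟨[(a, ε)], ⟨hε0, by simp, trivial⟩, rfl⟩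
      · by_cases h : a' = a
        · subst h
          by_cases h0 : ε + e' = 0
          · refine ⟨l, hl.2.2, ?_⟩
            simp only [sylProd]
            rw [← mul_assoc, ← _root_.zpow_add, h0, zpow_zero, one_mul]
          · refine ⟨(a', ε + e') :: l, ⟨h0, hl.2.1, hl.2.2⟩, ?_⟩
            simp only [sylProd]
            rw [← mul_assoc, ← _root_.zpow_add]
        · exact ⟨(a, ε) :: (a', e') :: l, ⟨hε0, by simpa using h, hl⟩, rfl⟩

theorem exists_split (p : ℕ) [Fact p.Prime] (e : ℤ) (he : e ≠ 0) :
    ∃ (a : ℕ) (u : ℤ), e = (p : ℤ) ^ a * u ∧ (u : ZMod p) ≠ 0 := by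
  have hfin : FiniteMultiplicity (p : ℤ) e := Int.finiteMultiplicity_iff.mpr
    ⟨by simpa using (Fact.out : p.Prime).ne_one, he⟩
  obtain ⟨u, hu, hn⟩ := hfin.exists_eq_pow_mul_and_not_dvd
  exact ⟨_, u, hu, fun h => hn ((ZMod.intCast_zmod_eq_zero_iff_dvd u p).mp h)⟩

/-- The `p`-power block length of an exponent. -/
noncomputable def blockLen (p : ℕ) (e : ℤ) : ℕ := p ^ multiplicity (p : ℤ) e

/-- The labelled path of a syllable list. -/
noncomputable def blocks (p : ℕ) : List (α × ℤ) → List α
  | [] => []
  | q :: l => List.replicate (blockLen p q.2) q.1 ++ blocks p l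

theorem blocks_getElem_zero (p : ℕ) [Fact p.Prime] (q : α × ℤ) (l : List (α × ℤ)) :
    (blocks p (q :: l))[0]? = some q.1 := by
  have h : 0 < blockLen p q.2 := pow_pos (Fact.out : p.Prime).pos _
  simp [blocks, List.getElem?_append, List.getElem?_replicate, h]

theorem main_step (p : ℕ) [Fact p.Prime] (ls : List α) (l : List (α × ℤ)) :
    ∀ (S : ℕ) (v : Fin (ls.length + 1) → ZMod p), Alternating l →
      ls.drop S = blocks p l → (hS : S < ls.length + 1) →
      (∀ q, l.head? = some q → ∀ k, k + 1 = S → ls[k]? ≠ some q.1) →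
      v ⟨S, hS⟩ ≠ 0 → (∀ t : Fin (ls.length + 1), S < t → v t = 0) →
      (v ᵥ* toMat p _ (sylProd (gen p ls) l)) (Fin.last _) ≠ 0 := by
  classical
  induction l with
  | nil =>
      intro S v _ hd hS _ hv _
      have hSL : S = ls.length := by
        have := congrArg List.length hd
        simp [blocks] at this
        omega
      subst hSL
      simpa [sylProd, Fin.last] using hv
  | cons q l ih =>
      intro S v halt hd hS hprev hv hsupp
      obtain ⟨he, hhead, halt'⟩ := halt
      have hfin : FiniteMultiplicity (p : ℤ) q.2 := Int.finiteMultiplicity_iff.mpr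
        ⟨by simpa using (Fact.out : p.Prime).ne_one, he⟩
      obtain ⟨u, hu, hnd⟩ := hfin.exists_eq_pow_mul_and_not_dvd
      set a := multiplicity (p : ℤ) q.2 with ha
      have hu0 : (u : ZMod p) ≠ 0 := fun h => hnd ((ZMod.intCast_zmod_eq_zero_iff_dvd u p).mp h)
      obtain ⟨u', hu', hM⟩ := toMat_gen_zpow p ls q.1 a u
      rw [← hu] at hM
      set b := p ^ a with hb
      have hbpos : 0 < b := pow_pos (Fact.out : p.Prime).pos _
      have hbl : blockLen p q.2 = b := rfl
      have hget : ∀ k, ls[S + k]? = (blocks p (q :: l))[k]? := by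
        intro k; rw [← hd, List.getElem?_drop]
      have hblock : ∀ k, S ≤ k → k < S + b → ls[k]? = some q.1 := by
        intro k h1 h2
        obtain ⟨j, rfl⟩ := Nat.exists_eq_add_of_le h1
        have hj : j < b := by omega
        rw [hget]
        simp [blocks, hbl, List.getElem?_append, List.getElem?_replicate, hj]
      have hdrop : ls.drop (S + b) = blocks p l := by
        rw [← List.drop_drop, hd, blocks, hbl, List.drop_left' (List.length_replicate ..)]
      have hS' : S + b < ls.length + 1 := by
        have := congrArg List.length hd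
        simp [blocks, hbl] at this
        omega
      have hnext : ls[S + b]? ≠ some q.1 := by
        have h1 : ls[S + b]? = (blocks p l)[0]? := by
          rw [← hdrop, List.getElem?_drop, add_zero]
        rw [h1]
        rcases l with _ | ⟨q', l⟩
        · simp [blocks]
        · rw [blocks_getElem_zero]
          simpa using hhead q' rfl
      set v' := v ᵥ* toMat p _ (gen p ls q.1 ^ q.2) with hv'
      have hval : ∀ t : Fin (ls.length + 1), S + b ≤ t →
          v' t = if (t : ℕ) = S + b then v ⟨S, hS⟩ * (u : ZMod p) else 0 := by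
        intro t ht
        rw [hv', hM, Matrix.vecMul_sum, Finset.sum_apply]
        simp only [Matrix.vecMul_smul, Pi.smul_apply, smul_eq_mul]
        have hterm : ∀ n : ℕ, (v ᵥ* stepMat p ls q.1 ^ (b * n)) t =
            if n = 1 ∧ (t : ℕ) = S + b then v ⟨S, hS⟩ else 0 := by
          intro n
          have hzero : ∀ s : Fin (ls.length + 1), v s * (stepMat p ls q.1 ^ (b * n)) s t ≠ 0 →
              (s : ℕ) = S ∧ n = 1 ∧ (t : ℕ) = S + b := by
            intro s hs
            have hvs : v s ≠ 0 := left_ne_zero_of_mul hs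
            have hsS : (s : ℕ) ≤ S := by
              by_contra hc; exact hvs (hsupp s (by omega))
            have hp := right_ne_zero_of_mul hs
            rw [stepMat_pow] at hp
            obtain ⟨ht', hrun⟩ : (t : ℕ) = s + b * n ∧
                ∀ k, (s : ℕ) ≤ k → k < t → ls[k]? = some q.1 := by
              by_contra hc; exact hp (if_neg hc)
            have hsS' : (s : ℕ) = S := by
              by_contra hc
              exact hprev q rfl (S - 1) (by omega) (hrun (S - 1) (by omega) (by omega))
            have htb : (t : ℕ) = S + b := by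
              by_contra hc
              exact hnext (hrun (S + b) (by omega) (by omega))
            refine ⟨hsS', ?_, htb⟩
            have : b * n = b * 1 := by omega
            exact Nat.eq_of_mul_eq_mul_left hbpos this
          show ∑ s, v s * (stepMat p ls q.1 ^ (b * n)) s t = _
          by_cases hn : n = 1 ∧ (t : ℕ) = S + b
          · rw [if_pos hn, Finset.sum_eq_single (⟨S, hS⟩ : Fin (ls.length + 1))]
            · rw [stepMat_pow, if_pos, mul_one]
              refine ⟨by simp [hn.1, hn.2], fun k h1 h2 => hblock k h1 (by omega)⟩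
            · intro s _ hs
              by_contra hc
              exact hs (Fin.ext (hzero s hc).1)
            · simp
          · rw [if_neg hn]
            refine Finset.sum_eq_zero fun s _ => ?_
            by_contra hc
            exact hn (hzero s hc).2
        simp only [hterm]
        by_cases htb : (t : ℕ) = S + b
        · rw [if_pos htb]
          have hu'0 : u' ≠ 0 := by
            intro h; apply hu0; rw [← hu', h, Nat.cast_zero]
          rw [Finset.sum_eq_single 1]
          · rw [if_pos ⟨rfl, htb⟩, Nat.choose_one_right, hu', mul_comm]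
          · intro n _ hn; simp [hn]
          · intro h; exact absurd (Finset.mem_range.mpr (by omega)) h
        · rw [if_neg htb]
          exact Finset.sum_eq_zero fun n _ => by simp [htb]
      have := ih (S + b) v' halt' hdrop hS' ?_ ?_ ?_
      · rw [sylProd, map_mul, ← Matrix.vecMul_vecMul]
        exact this
      · intro q' hq' k hk
        rw [hblock k (by omega) (by omega)]
        intro h
        exact hhead q' hq' (Option.some.inj h).symm
      · rw [hval _ le_rfl, if_pos rfl]
        exact mul_ne_zero hv hu0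
      · intro t ht
        rw [hval t (by omega), if_neg (by omega)]

/-- Free groups are residually finite `p`-groups. -/
theorem freeGroup_resP (p : ℕ) [Fact p.Prime] (α : Type*) :
    ResiduallyPFinite p (FreeGroup α) := by
  intro w hw
  obtain ⟨l, halt, rfl⟩ := exists_syllables w
  have hl : l ≠ [] := by rintro rfl; exact hw rfl
  set ls := blocks p l with hls
  refine ⟨unitriGroup p (ls.length + 1), inferInstance, inferInstance,
    unitriGroup_isPGroup p _, FreeGroup.lift (gen p ls), ?_⟩
  intro h
  rw [map_sylProd] at h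
  simp only [FreeGroup.lift_apply_of] at h
  have := main_step p ls l 0 (Pi.single 0 1) halt (by simp [hls]) (by omega)
    (by intro q _ k hk; omega) (by simp) (by
      intro t ht
      rw [Pi.single_eq_of_ne]
      intro hc; subst hc; simp at ht)
  apply this
  rw [show sylProd (gen p ls) l = 1 from h, map_one, Matrix.vecMul_one, Pi.single_eq_of_ne]
  intro hc
  have hlen : 0 < ls.length := by
    rcases l with _ | ⟨q, l⟩
    · exact absurd rfl hl
    · have hb : 0 < blockLen p q.2 := pow_pos (Fact.out : p.Prime).pos _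
      rw [hls]; simp [blocks]; omega
  have h0 : ls.length = 0 := congrArg Fin.val hc
  omega

end Vale.Agent.P194
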