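import Mathlib

open MonoidAlgebra

namespace Vale.Agent.P194

/-- Gromov soficity: finite partial actions that are almost multiplicative and almost free. -/
def IsSoficGroup (G : Type*) [Group G] : Prop :=
  ∀ (F : Finset G) (ε : ℝ), 0 < ε →
    ∃ (V : Type) (_ : Fintype V) (_ : DecidableEq V) (_ : Nonempty V) (σ : G → Equiv.Perm V),
      (∀ g ∈ F, ∀ h ∈ F,
        ((Finset.univ.filter fun v => σ (g * h) v ≠ σ g (σ h v)).card : ℝ) ≤ ε * Fintype.card V) ∧
      (∀ g ∈ F, ∀ h ∈ F, g ≠ h →
        ((Finset.univ.filter fun v => σ g v = σ h v).card : ℝ) ≤ ε * Fintype.card V)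

section linear

variable {K : Type*} [Field K] {m : Type*} [Fintype m] [DecidableEq m]

theorem finrank_ker_le (A B : Matrix m m K) :
    Module.finrank K (LinearMap.ker (A * B - 1).mulVecLin) ≤
      Module.finrank K (LinearMap.ker (B * A - 1).mulVecLin) := by
  have hmem : ∀ x ∈ LinearMap.ker (A * B - 1).mulVecLin,
      Matrix.mulVecLin B x ∈ LinearMap.ker (B * A - 1).mulVecLin := by
    intro x hx
    simp only [LinearMap.mem_ker, Matrix.mulVecLin_apply, Matrix.sub_mulVec, Matrix.one_mulVec,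
      sub_eq_zero] at hx ⊢
    rw [← Matrix.mulVec_mulVec, Matrix.mulVec_mulVec (M := A), hx]
  refine LinearMap.finrank_le_finrank_of_injective
    (f := B.mulVecLin.restrict hmem) fun x y hxy => ?_
  apply Subtype.ext
  have h := congrArg A.mulVec (congrArg Subtype.val hxy)
  simp only [LinearMap.restrict_coe_apply, Matrix.mulVecLin_apply, Matrix.mulVec_mulVec] at h
  have hx := x.2
  have hy := y.2
  simp only [LinearMap.mem_ker, Matrix.mulVecLin_apply, Matrix.sub_mulVec, Matrix.one_mulVec,
    sub_eq_zero] at hx hy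
  rw [hx, hy] at h
  exact h

theorem rank_sub_one_comm (A B : Matrix m m K) :
    (B * A - 1).rank ≤ (A * B - 1).rank := by
  have h1 := finrank_ker_le A B
  have h2 := LinearMap.finrank_range_add_finrank_ker (A * B - 1).mulVecLin
  have h3 := LinearMap.finrank_range_add_finrank_ker (B * A - 1).mulVecLin
  unfold Matrix.rank
  omega

theorem rank_le_of_zero_cols (M : Matrix m m K) (s : Finset m)
    (h : ∀ i, ∀ j ∉ s, M i j = 0) : M.rank ≤ s.card := by
  classical
  have hM : M = M * Matrix.diagonal (fun j => if j ∈ s then (1 : K) else 0) := by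
    ext i j
    rw [Matrix.mul_diagonal]
    by_cases hj : j ∈ s
    · simp [hj]
    · simp [hj, h i j hj]
  rw [hM]
  refine (Matrix.rank_mul_le_right _ _).trans ?_
  rw [Matrix.rank_diagonal, Fintype.card_subtype]
  refine Finset.card_le_card fun j hj => ?_
  simp at hj
  exact hj

end linear

variable {K : Type*} [Field K] {G : Type*} {V : Type*} [DecidableEq V] {n : ℕ}

/-- The matrix of a group-algebra matrix in a sofic model. -/
noncomputable def model (σ : G → Equiv.Perm V) (A : Matrix (Fin n) (Fin n) (MonoidAlgebra K G)) :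
    Matrix (Fin n × V) (Fin n × V) K :=
  fun p q => (A p.1 q.1).coeff.sum fun g c => if σ g q.2 = p.2 then c else 0

variable [Group G]

/-- Entrywise support of a matrix. -/
noncomputable def msupp [DecidableEq G] (A : Matrix (Fin n) (Fin n) (MonoidAlgebra K G)) :
    Finset G :=
  Finset.univ.biUnion fun p : Fin n × Fin n => (A p.1 p.2).coeff.support

theorem mem_msupp [DecidableEq G] (A : Matrix (Fin n) (Fin n) (MonoidAlgebra K G)) {i j : Fin n}
    {g : G} (h : g ∈ (A i j).coeff.support) : g ∈ msupp A :=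
  Finset.mem_biUnion.mpr ⟨(i, j), Finset.mem_univ _, h⟩

theorem model_mul_col [DecidableEq G] [Fintype V] (σ : G → Equiv.Perm V)
    (A B : Matrix (Fin n) (Fin n) (MonoidAlgebra K G)) (v : V)
    (hv : ∀ g ∈ msupp A, ∀ h ∈ msupp B, σ (g * h) v = σ g (σ h v)) (p : Fin n × V) (k : Fin n) :
    (model σ A * model σ B) p (k, v) = model σ (A * B) p (k, v) := by
  classical
  let ev : MonoidAlgebra K G →ₗ[K] K :=
    Finsupp.linearCombination K (fun g => if σ g v = p.2 then (1 : K) else 0) ∘ₗ
      (MonoidAlgebra.coeffLinearEquiv (S := K) (M := G) K).toLinearMap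
  have hev : ∀ x : MonoidAlgebra K G,
      ev x = x.coeff.sum fun g c => if σ g v = p.2 then c else 0 := by
    intro x; simp [ev, Finsupp.linearCombination_apply]
  have hevs : ∀ g c, ev (single g c) = if σ g v = p.2 then c else 0 := by
    intro g c; simp [ev]
  have hR : model σ (A * B) p (k, v) = ∑ j, ev (A p.1 j * B j k) := by
    rw [model, ← hev, Matrix.mul_apply, map_sum]
  rw [hR, Matrix.mul_apply, Fintype.sum_prod_type]
  refine Finset.sum_congr rfl fun j _ => ?_
  rw [MonoidAlgebra.mul_def]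
  simp only [model, Finsupp.sum, map_sum, hevs, Finset.sum_mul, Finset.mul_sum]
  rw [Finset.sum_comm]
  conv_lhs => enter [2, h]; rw [Finset.sum_comm]
  rw [Finset.sum_comm]
  refine Finset.sum_congr rfl fun g hg => Finset.sum_congr rfl fun h hh => ?_
  rw [Finset.sum_eq_single (σ h v)]
  · rw [hv g (mem_msupp A hg) h (mem_msupp B hh)]
    simp
  · intro u _ hu
    simp [Ne.symm hu]
  · simp

theorem model_one [DecidableEq G] [Fintype V] (σ : G → Equiv.Perm V) (v : V) (hv : σ 1 v = v)
    (p : Fin n × V) (k : Fin n) :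
    model σ (1 : Matrix (Fin n) (Fin n) (MonoidAlgebra K G)) p (k, v) =
      (1 : Matrix (Fin n × V) (Fin n × V) K) p (k, v) := by
  obtain ⟨i, w⟩ := p
  by_cases hik : i = k
  · subst hik
    simp [model, MonoidAlgebra.one_def, hv, Matrix.one_apply, eq_comm]
  · simp [model, Matrix.one_apply, hik]

theorem model_sub [DecidableEq G] (σ : G → Equiv.Perm V)
    (A B : Matrix (Fin n) (Fin n) (MonoidAlgebra K G)) (p q : Fin n × V) :
    model σ (A - B) p q = model σ A p q - model σ B p q := by
  simp only [model, Matrix.sub_apply, MonoidAlgebra.coeff_sub]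
  exact Finsupp.sum_sub_index fun g c d => by split_ifs <;> simp

/-- Linear lower bound on the rank of the model of a nonzero matrix. -/
theorem rank_model_ge [DecidableEq G] [Fintype V] (σ : G → Equiv.Perm V)
    (D : Matrix (Fin n) (Fin n) (MonoidAlgebra K G)) (M : Matrix (Fin n × V) (Fin n × V) K)
    (i k : Fin n) (g₀ : G) (hg₀ : g₀ ∈ (D i k).coeff.support) (good : Finset V)
    (hsep : ∀ v ∈ good, ∀ g ∈ msupp D, g ≠ g₀ → σ g v ≠ σ g₀ v)
    (hM : ∀ v ∈ good, ∀ p, M p (k, v) = model σ D p (k, v)) :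
    good.card ≤ M.rank * (2 * (msupp D).card + 1) := by
  classical
  let indep : Finset (Finset V) := good.powerset.filter fun T =>
    ∀ a ∈ T, ∀ b ∈ T, a ≠ b → ∀ g ∈ msupp D, σ g a ≠ σ g₀ b
  have hne : indep.Nonempty := ⟨∅, by simp [indep]⟩
  obtain ⟨T, hT, hmax⟩ := Finset.exists_max_image indep Finset.card hne
  simp only [indep, Finset.mem_filter, Finset.mem_powerset] at hT hmax
  obtain ⟨hTgood, hTind⟩ := hT
  let nb : V → Finset V := fun t => insert t
    (((msupp D).image fun g => (σ g).symm (σ g₀ t)) ∪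
      ((msupp D).image fun g => (σ g₀).symm (σ g t)))
  have hcover : good ⊆ T.biUnion nb := by
    intro v hv
    by_contra hc
    simp only [Finset.mem_biUnion, nb, Finset.mem_insert, Finset.mem_union, Finset.mem_image,
      not_exists, not_and, not_or] at hc
    have hvT : v ∉ T := fun h => (hc v h).1 rfl
    have := hmax (insert v T) ⟨Finset.insert_subset hv hTgood, ?_⟩
    · rw [Finset.card_insert_of_notMem hvT] at this; omega
    · intro a ha b hb hab g hg heq
      rcases Finset.mem_insert.mp ha with rfl | ha'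
      · rcases Finset.mem_insert.mp hb with rfl | hb'
        · exact hab rfl
        · exact (hc b hb').2.1 g hg (by rw [← heq, Equiv.symm_apply_apply])
      · rcases Finset.mem_insert.mp hb with rfl | hb'
        · exact (hc a ha').2.2 g hg (by rw [heq, Equiv.symm_apply_apply])
        · exact hTind a ha' b hb' hab g hg heq
  have hnb : ∀ t, (nb t).card ≤ 2 * (msupp D).card + 1 := by
    intro t
    refine (Finset.card_insert_le _ _).trans ?_
    gcongr
    refine (Finset.card_union_le _ _).trans ?_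
    rw [two_mul]
    exact add_le_add Finset.card_image_le Finset.card_image_le
  have hrank : T.card ≤ M.rank := by
    have hsub := Matrix.rank_submatrix_le M (fun t : T => (i, σ g₀ t)) (fun t : T => (k, (t : V)))
    refine le_trans ?_ hsub
    have hdiag : M.submatrix (fun t : T => (i, σ g₀ t)) (fun t : T => (k, (t : V))) =
        Matrix.diagonal (fun _ : T => (D i k).coeff g₀) := by
      ext s t
      rw [Matrix.submatrix_apply, hM _ (hTgood t.2), model, Finsupp.sum]
      by_cases hst : s = t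
      · subst hst
        rw [Matrix.diagonal_apply_eq, Finset.sum_eq_single g₀]
        · simp
        · intro g hg hgne
          rw [if_neg (hsep _ (hTgood s.2) g (mem_msupp D hg) hgne)]
        · intro h; exact absurd hg₀ h
      · rw [Matrix.diagonal_apply_ne _ hst]
        refine Finset.sum_eq_zero fun g hg => if_neg ?_
        exact hTind t t.2 s s.2 (fun h => hst (Subtype.ext h).symm) g (mem_msupp D hg)
    rw [hdiag, Matrix.rank_diagonal]
    simp [Finsupp.mem_support_iff.mp hg₀]
  calc good.card ≤ (T.biUnion nb).card := Finset.card_le_card hcover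
    _ ≤ T.card * (2 * (msupp D).card + 1) := Finset.card_biUnion_le_card_mul _ _ _ fun t _ => hnb t
    _ ≤ M.rank * (2 * (msupp D).card + 1) := Nat.mul_le_mul_right _ hrank

/-- In a model, a one-sided inverse forces the good points to be few. -/
theorem model_count [DecidableEq G] [Fintype V] (σ : G → Equiv.Perm V)
    (A B : Matrix (Fin n) (Fin n) (MonoidAlgebra K G)) (hAB : A * B = 1)
    (i k : Fin n) (g₀ : G) (hg₀ : g₀ ∈ ((B * A - 1 : Matrix _ _ (MonoidAlgebra K G)) i k).coeff.support)
    (bad : Finset V) (h1 : ∀ v, v ∉ bad → σ 1 v = v)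
    (hAB' : ∀ v, v ∉ bad → ∀ g ∈ msupp A, ∀ h ∈ msupp B, σ (g * h) v = σ g (σ h v))
    (hBA' : ∀ v, v ∉ bad → ∀ g ∈ msupp B, ∀ h ∈ msupp A, σ (g * h) v = σ g (σ h v))
    (hsep : ∀ v, v ∉ bad → ∀ g ∈ msupp (B * A - 1), g ≠ g₀ → σ g v ≠ σ g₀ v) :
    Fintype.card V ≤ bad.card + n * bad.card * (2 * (msupp (B * A - 1)).card + 1) := by
  have hE : (model σ A * model σ B - 1).rank ≤ n * bad.card := by
    have hc : ((Finset.univ : Finset (Fin n)) ×ˢ bad).card = n * bad.card := by simp
    refine (rank_le_of_zero_cols _ ((Finset.univ : Finset (Fin n)) ×ˢ bad) ?_).trans hc.le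
    rintro p ⟨j, v⟩ hjv
    have hv : v ∉ bad := fun h => hjv (Finset.mem_product.mpr ⟨Finset.mem_univ _, h⟩)
    rw [Matrix.sub_apply, model_mul_col σ A B v (hAB' v hv), hAB, model_one σ v (h1 v hv), sub_self]
  have hlow : badᶜ.card ≤
      (model σ B * model σ A - 1).rank * (2 * (msupp (B * A - 1)).card + 1) := by
    refine rank_model_ge σ _ _ i k g₀ hg₀ badᶜ ?_ ?_
    · intro v hv
      exact hsep v (Finset.mem_compl.mp hv)
    · intro v hv p
      have hv' := Finset.mem_compl.mp hv
      rw [Matrix.sub_apply, model_mul_col σ B A v (hBA' v hv'), model_sub,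
        model_one σ v (h1 v hv')]
  have hup := (rank_sub_one_comm (model σ A) (model σ B)).trans hE
  have h2 := Finset.card_compl_add_card bad
  have h3 := Nat.mul_le_mul_right (2 * (msupp (B * A - 1)).card + 1) hup
  omega

/-- Sofic models with few bad points. -/
theorem exists_good_model (hG : IsSoficGroup G) (F : Finset G) (δ : ℝ) (hδ : 0 < δ) :
    ∃ (V : Type) (_ : Fintype V) (_ : DecidableEq V) (_ : Nonempty V) (σ : G → Equiv.Perm V)
      (bad : Finset V), (bad.card : ℝ) ≤ δ * Fintype.card V ∧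
      (∀ v, v ∉ bad → ∀ g ∈ F, ∀ h ∈ F, σ (g * h) v = σ g (σ h v)) ∧
      (∀ v, v ∉ bad → ∀ g ∈ F, ∀ h ∈ F, g ≠ h → σ g v ≠ σ h v) := by
  classical
  let ε : ℝ := δ / (2 * ((F ×ˢ F).card + 1))
  have hε : 0 < ε := by positivity
  obtain ⟨V, i1, i2, i3, σ, hmul, hsep⟩ := hG F ε hε
  let mulBad : G × G → Finset V := fun gh =>
    Finset.univ.filter fun v => σ (gh.1 * gh.2) v ≠ σ gh.1 (σ gh.2 v)
  let eqBad : G × G → Finset V := fun gh =>
    Finset.univ.filter fun v => gh.1 ≠ gh.2 ∧ σ gh.1 v = σ gh.2 v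
  refine ⟨V, i1, i2, i3, σ, (F ×ˢ F).biUnion fun gh => mulBad gh ∪ eqBad gh, ?_, ?_, ?_⟩
  · have h1 : (((F ×ˢ F).biUnion fun gh => mulBad gh ∪ eqBad gh).card : ℝ) ≤
        ∑ gh ∈ F ×ˢ F, ((mulBad gh ∪ eqBad gh).card : ℝ) := by
      exact_mod_cast Finset.card_biUnion_le
    have h2 : ∀ gh ∈ F ×ˢ F, ((mulBad gh ∪ eqBad gh).card : ℝ) ≤ 2 * ε * Fintype.card V := by
      intro gh hgh
      obtain ⟨hg, hh⟩ := Finset.mem_product.mp hgh
      have hu : ((mulBad gh ∪ eqBad gh).card : ℝ) ≤ (mulBad gh).card + (eqBad gh).card := by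
        exact_mod_cast Finset.card_union_le _ _
      have ha : ((mulBad gh).card : ℝ) ≤ ε * Fintype.card V := hmul _ hg _ hh
      have hb : ((eqBad gh).card : ℝ) ≤ ε * Fintype.card V := by
        by_cases hne : gh.1 = gh.2
        · have h0 : eqBad gh = ∅ := Finset.filter_false_of_mem fun v _ h => h.1 hne
          rw [h0, Finset.card_empty, Nat.cast_zero]
          positivity
        · refine le_trans ?_ (hsep _ hg _ hh hne)
          have : eqBad gh ⊆ Finset.univ.filter fun v => σ gh.1 v = σ gh.2 v := fun v hv =>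
            Finset.mem_filter.mpr ⟨Finset.mem_univ _, (Finset.mem_filter.mp hv).2.2⟩
          exact_mod_cast Finset.card_le_card this
      linarith
    have h3 := Finset.sum_le_card_nsmul _ _ _ h2
    rw [nsmul_eq_mul] at h3
    refine h1.trans (h3.trans ?_)
    have h4 : ((F ×ˢ F).card : ℝ) * (2 * ε) ≤ δ := by
      have : (0 : ℝ) ≤ ((F ×ˢ F).card : ℝ) := Nat.cast_nonneg _
      rw [show ((F ×ˢ F).card : ℝ) * (2 * ε) = ((F ×ˢ F).card : ℝ) * δ / ((F ×ˢ F).card + 1) by
        simp only [ε]; field_simp]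
      rw [div_le_iff₀ (by positivity)]
      nlinarith
    calc ((F ×ˢ F).card : ℝ) * (2 * ε * Fintype.card V)
        = ((F ×ˢ F).card : ℝ) * (2 * ε) * Fintype.card V := by ring
      _ ≤ δ * Fintype.card V := mul_le_mul_of_nonneg_right h4 (Nat.cast_nonneg _)
  · intro v hv g hg h hh
    by_contra hc
    exact hv (Finset.mem_biUnion.mpr ⟨(g, h), Finset.mem_product.mpr ⟨hg, hh⟩,
      Finset.mem_union_left _ (Finset.mem_filter.mpr ⟨Finset.mem_univ _, hc⟩)⟩)
  · intro v hv g hg h hh hne heq
    exact hv (Finset.mem_biUnion.mpr ⟨(g, h), Finset.mem_product.mpr ⟨hg, hh⟩,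
      Finset.mem_union_right _ (Finset.mem_filter.mpr ⟨Finset.mem_univ _, hne, heq⟩)⟩)

/-- Elek–Szabó: group algebras of sofic groups are stably finite. -/
theorem stablyFinite_of_sofic {K : Type*} [Field K] {G : Type*} [Group G] (hG : IsSoficGroup G) :
    IsStablyFiniteRing (MonoidAlgebra K G) := by
  classical
  refine ⟨fun n => ⟨fun {A B} hAB => ?_⟩⟩
  by_contra hBA
  obtain ⟨i, k, hik⟩ : ∃ i k, (B * A - 1) i k ≠ 0 := by
    by_contra hc; push Not at hc; exact (sub_ne_zero.mpr hBA) (Matrix.ext hc)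
  obtain ⟨g₀, hg₀⟩ : ((B * A - 1) i k).coeff.support.Nonempty := by
    rw [Finsupp.support_nonempty_iff]
    intro h
    exact hik (MonoidAlgebra.coeff_injective (by rw [h]; rfl))
  let F : Finset G := insert 1 (msupp A ∪ msupp B ∪ msupp (B * A - 1))
  have hF1 : (1 : G) ∈ F := Finset.mem_insert_self _ _
  have hFA : ∀ x ∈ msupp A, x ∈ F := fun x hx =>
    Finset.mem_insert_of_mem (Finset.mem_union_left _ (Finset.mem_union_left _ hx))
  have hFB : ∀ x ∈ msupp B, x ∈ F := fun x hx =>
    Finset.mem_insert_of_mem (Finset.mem_union_left _ (Finset.mem_union_right _ hx))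
  have hFD : ∀ x ∈ msupp (B * A - 1), x ∈ F := fun x hx =>
    Finset.mem_insert_of_mem (Finset.mem_union_right _ hx)
  obtain ⟨C, hC⟩ : ∃ C : ℕ, C = 2 * (msupp (B * A - 1)).card + 1 := ⟨_, rfl⟩
  let δ : ℝ := 1 / (2 + n * C)
  have hδ : 0 < δ := by positivity
  obtain ⟨V, _, _, _, σ, bad, hbad, hmul, hsep⟩ := exists_good_model hG F δ hδ
  have h1 : ∀ v, v ∉ bad → σ 1 v = v := by
    intro v hv
    have := hmul v hv 1 hF1 1 hF1
    rw [one_mul] at this
    exact ((σ 1).injective this).symm
  have htot : Fintype.card V ≤ bad.card + n * bad.card * C := by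
    rw [hC]
    exact model_count σ A B hAB i k g₀ hg₀ bad h1
      (fun v hv g hg h hh => hmul v hv g (hFA g hg) h (hFB h hh))
      (fun v hv g hg h hh => hmul v hv g (hFB g hg) h (hFA h hh))
      (fun v hv g hg hne => hsep v hv g (hFD g hg) g₀ (hFD g₀ (mem_msupp _ hg₀)) hne)
  have htotR : (Fintype.card V : ℝ) ≤ (bad.card : ℝ) * (1 + n * C) := by
    have h : (Fintype.card V : ℝ) ≤ (bad.card : ℝ) + n * bad.card * C := by exact_mod_cast htot
    linarith
  have hVpos : (0 : ℝ) < Fintype.card V := by exact_mod_cast Fintype.card_pos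
  have hnC : (0 : ℝ) ≤ (n : ℝ) * C := by positivity
  have h4 : δ * (1 + n * C) < 1 := by
    simp only [δ]
    rw [div_mul_eq_mul_div, one_mul, div_lt_one (by positivity)]
    linarith
  have h5 := mul_le_mul_of_nonneg_right hbad (by positivity : (0 : ℝ) ≤ 1 + n * C)
  have h6 := mul_lt_mul_of_pos_right h4 hVpos
  linarith

end Vale.Agent.P194
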