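import Mathlib
import Vale.Agent.P194.Permanence
import Vale.Agent.P194.FreeResP
import Vale.Agent.P194.Sofic

namespace Vale.Agent.P194

theorem ResiduallyPFinite.of_injective {p : ℕ} {M N : Type*} [Group M] [Group N] (f : M →* N)
    (hf : Function.Injective f) (h : ResiduallyPFinite p N) : ResiduallyPFinite p M := by
  intro x hx
  obtain ⟨P, i1, i2, hP, φ, hφ⟩ := h (f x) fun hc => hx (hf (by rw [hc, map_one]))
  exact ⟨P, i1, i2, hP, φ.comp f, hφ⟩

variable {G : Type*} [Group G] (H : Subgroup G)

/-- Translation of cosets, acting on the free group on the cosets. -/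
noncomputable def cosetAut : G →* MulAut (FreeGroup (G ⧸ H)) :=
  MonoidHom.mk' (fun g => FreeGroup.freeGroupCongr (MulAction.toPerm g)) (by
    intro a b
    apply MulEquiv.toMonoidHom_injective
    apply FreeGroup.ext_hom
    intro c
    simp [mul_smul])

/-- The HNN extension with a stable letter centralizing `H`. -/
abbrev CentExt := HNNExtension G H H (MulEquiv.refl H)

/-- Retraction to `G`. -/
noncomputable def centRight : CentExt H →* G :=
  HNNExtension.lift (MonoidHom.id G) 1 (by intro a; simp)

/-- The splitting. -/
noncomputable def toSemi : CentExt H →* SemidirectProduct (FreeGroup (G ⧸ H)) G (cosetAut H) :=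
  HNNExtension.lift SemidirectProduct.inr
    (SemidirectProduct.inl (FreeGroup.of (((1 : G) : G ⧸ H)))) (by
    intro a
    have hc : (a : G) • ((1 : G) : G ⧸ H) = ((1 : G) : G ⧸ H) := by
      rw [MulAction.Quotient.smul_coe, smul_eq_mul, mul_one, QuotientGroup.eq]
      simp
    apply SemidirectProduct.ext
    · show FreeGroup.of ((1 : G) : G ⧸ H) * cosetAut H 1 1 =
        1 * cosetAut H (a : G) (FreeGroup.of ((1 : G) : G ⧸ H))
      rw [map_one (cosetAut H), MulAut.one_apply, mul_one, one_mul]
      simp [cosetAut, hc]
    · simp)

/-- The inverse on the free part. -/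
noncomputable def fromFree : FreeGroup (G ⧸ H) →* CentExt H :=
  FreeGroup.lift fun c => Quotient.liftOn' c
    (fun g => HNNExtension.of g * HNNExtension.t * (HNNExtension.of g)⁻¹) (by
    intro a b hab
    obtain ⟨h, rfl⟩ : ∃ h : H, b = a * h :=
      ⟨⟨a⁻¹ * b, QuotientGroup.leftRel_apply.mp hab⟩, by simp⟩
    have := HNNExtension.t_mul_of (φ := MulEquiv.refl H) h
    simp only [MulEquiv.refl_apply] at this
    simp only [map_mul, mul_inv_rev, mul_assoc]
    congr 1
    rw [← mul_assoc (HNNExtension.of (h : G)), ← this]
    simp)

theorem fromFree_of (g : G) :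
    fromFree H (FreeGroup.of (g : G ⧸ H)) =
      HNNExtension.of g * HNNExtension.t * (HNNExtension.of g)⁻¹ := by
  simp [fromFree]

/-- The inverse of the splitting. -/
noncomputable def fromSemi :
    SemidirectProduct (FreeGroup (G ⧸ H)) G (cosetAut H) →* CentExt H :=
  SemidirectProduct.lift (fromFree H) HNNExtension.of (by
    intro g
    apply FreeGroup.ext_hom
    intro c
    induction c using QuotientGroup.induction_on with
    | _ a =>
      simp [cosetAut, fromFree_of, MulAut.conj_apply, mul_assoc])

theorem toSemi_injective : Function.Injective (toSemi H) := by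
  have h : (fromSemi H).comp (toSemi H) = MonoidHom.id _ := by
    apply HNNExtension.hom_ext
    · ext g; simp [toSemi, fromSemi]
    · simp [toSemi, fromSemi, fromFree_of]
  exact Function.HasLeftInverse.injective ⟨fromSemi H, fun x => DFunLike.congr_fun h x⟩

theorem toSemi_right (x : CentExt H) : (toSemi H x).right = centRight H x := by
  have h : SemidirectProduct.rightHom.comp (toSemi H) = centRight H := by
    apply HNNExtension.hom_ext
    · ext g; simp [toSemi, centRight]
    · simp [toSemi, centRight]
  exact DFunLike.congr_fun h x

/-- The kernel of the retraction sits inside a free group. -/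
noncomputable def kerToFree : (centRight H).ker →* FreeGroup (G ⧸ H) :=
  MonoidHom.mk' (fun x => (toSemi H x).left) (by
    intro x y
    have hx : (toSemi H (x : CentExt H)).right = 1 := (toSemi_right H x).trans x.2
    simp [hx])

theorem kerToFree_injective : Function.Injective (kerToFree H) := by
  intro x y hxy
  apply Subtype.ext
  apply toSemi_injective H
  refine SemidirectProduct.ext hxy ?_
  rw [toSemi_right, toSemi_right, show centRight H x = 1 from x.2, show centRight H y = 1 from y.2]

theorem centExt_ker_resP (p : ℕ) [Fact p.Prime] : ResiduallyPFinite p (centRight H).ker :=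
  ResiduallyPFinite.of_injective _ (kerToFree_injective H) (freeGroup_resP p _)

end Vale.Agent.P194
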